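import Vale.Agent.P213.Cat.Diagram

/-!
# P213: all small limits and colimits of n-categories
-/

open CategoryTheory Limits

noncomputable section

namespace Vale.Agent.P213

namespace OmegaCat

variable {n : ℕ∞} {J : Type} [SmallCategory J] (D : J ⥤ NCat n)

theorem hom_congr {X Y : OmegaCat} {f g : X ⟶ Y} (h : f = g) (x : X.Cell) :
    f.toFun x = g.toFun x := h ▸ rfl

/-- Compatible families of cells of bounded dimension. -/
abbrev LimCell : Type :=
  {x : ∀ j, (D.obj j).obj.Cell //
    (∀ {j k} (f : j ⟶ k), (D.map f).hom.toFun (x j) = x k) ∧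
      ∃ N, ∀ j, (D.obj j).obj.src N (x j) = x j}

theorem LimCell.ext {x y : LimCell D} (h : ∀ j, x.1 j = y.1 j) : x = y := Subtype.ext (funext h)

/-- The source of a compatible family. -/
def limSrc (i : ℕ) (x : LimCell D) : LimCell D :=
  ⟨fun j => (D.obj j).obj.src i (x.1 j),
    fun f => by rw [Hom.map_src, x.2.1], i, fun j => (D.obj j).obj.src_src i _⟩

/-- The target of a compatible family. -/
def limTgt (i : ℕ) (x : LimCell D) : LimCell D :=
  ⟨fun j => (D.obj j).obj.tgt i (x.1 j),
    fun f => by rw [Hom.map_tgt, x.2.1], i, fun j => (D.obj j).obj.src_tgt i _⟩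

open Classical in
/-- The composite of compatible families. -/
def limComp (i : ℕ) (x y : LimCell D) : LimCell D :=
  if h : ∀ j, (D.obj j).obj.tgt i (x.1 j) = (D.obj j).obj.src i (y.1 j) then
    ⟨fun j => (D.obj j).obj.comp i (x.1 j) (y.1 j),
      fun f => by rw [Hom.map_comp _ _ _ _ (h _), x.2.1, y.2.1], by
      obtain ⟨N, hN⟩ := x.2.2
      obtain ⟨N', hN'⟩ := y.2.2
      refine ⟨max (max N N') (i + 1), fun j => ?_⟩
      rw [(D.obj j).obj.src_comp_hi (by omega) _ _ (h j),
        (D.obj j).obj.src_of_le (i := N) (by omega) (hN j),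
        (D.obj j).obj.src_of_le (i := N') (by omega) (hN' j)]⟩
  else x

theorem limComp_apply {i : ℕ} {x y : LimCell D} (h : limTgt D i x = limSrc D i y) (j : J) :
    (limComp D i x y).1 j = (D.obj j).obj.comp i (x.1 j) (y.1 j) := by
  have h' : ∀ j, (D.obj j).obj.tgt i (x.1 j) = (D.obj j).obj.src i (y.1 j) := fun j =>
    congrFun (congrArg Subtype.val h) j
  rw [limComp, dif_pos h']

theorem limTgt_eq_src {i : ℕ} {x y : LimCell D} (h : limTgt D i x = limSrc D i y) (j : J) :
    (D.obj j).obj.tgt i (x.1 j) = (D.obj j).obj.src i (y.1 j) :=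
  congrFun (congrArg Subtype.val h) j

/-- The limit omega-category. -/
def limObj : OmegaCat where
  Cell := LimCell D
  src := limSrc D
  tgt := limTgt D
  comp := limComp D
  src_src i x := LimCell.ext _ fun j => (D.obj j).obj.src_src i _
  tgt_src i x := LimCell.ext _ fun j => (D.obj j).obj.tgt_src i _
  src_tgt i x := LimCell.ext _ fun j => (D.obj j).obj.src_tgt i _
  tgt_tgt i x := LimCell.ext _ fun j => (D.obj j).obj.tgt_tgt i _
  src_src_lo h x := LimCell.ext _ fun j => (D.obj j).obj.src_src_lo h _
  src_tgt_lo h x := LimCell.ext _ fun j => (D.obj j).obj.src_tgt_lo h _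
  tgt_src_lo h x := LimCell.ext _ fun j => (D.obj j).obj.tgt_src_lo h _
  tgt_tgt_lo h x := LimCell.ext _ fun j => (D.obj j).obj.tgt_tgt_lo h _
  src_src_hi h x := LimCell.ext _ fun j => (D.obj j).obj.src_src_hi h _
  src_tgt_hi h x := LimCell.ext _ fun j => (D.obj j).obj.src_tgt_hi h _
  tgt_src_hi h x := LimCell.ext _ fun j => (D.obj j).obj.tgt_src_hi h _
  tgt_tgt_hi h x := LimCell.ext _ fun j => (D.obj j).obj.tgt_tgt_hi h _
  finite_dim x := by
    obtain ⟨N, hN⟩ := x.2.2
    exact ⟨N, LimCell.ext _ hN⟩
  src_comp i x y h := LimCell.ext _ fun j => by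
    show (D.obj j).obj.src i _ = (D.obj j).obj.src i _
    rw [limComp_apply D h, (D.obj j).obj.src_comp i _ _ (limTgt_eq_src D h j)]
  tgt_comp i x y h := LimCell.ext _ fun j => by
    show (D.obj j).obj.tgt i _ = (D.obj j).obj.tgt i _
    rw [limComp_apply D h, (D.obj j).obj.tgt_comp i _ _ (limTgt_eq_src D h j)]
  src_comp_hi {i j} hij x y h := LimCell.ext _ fun k => by
    show (D.obj k).obj.src j _ = _
    rw [limComp_apply D h, limComp_apply D (LimCell.ext _ fun k => ?_)]
    · exact (D.obj k).obj.src_comp_hi hij _ _ (limTgt_eq_src D h k)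
    · show (D.obj k).obj.tgt i _ = (D.obj k).obj.src i _
      exact ((D.obj k).obj.tgt_src_lo hij _).trans
        ((limTgt_eq_src D h k).trans ((D.obj k).obj.src_src_lo hij _).symm)
  tgt_comp_hi {i j} hij x y h := LimCell.ext _ fun k => by
    show (D.obj k).obj.tgt j _ = _
    rw [limComp_apply D h, limComp_apply D (LimCell.ext _ fun k => ?_)]
    · exact (D.obj k).obj.tgt_comp_hi hij _ _ (limTgt_eq_src D h k)
    · show (D.obj k).obj.tgt i _ = (D.obj k).obj.src i _
      exact ((D.obj k).obj.tgt_tgt_lo hij _).trans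
        ((limTgt_eq_src D h k).trans ((D.obj k).obj.src_tgt_lo hij _).symm)
  unit_left i x := LimCell.ext _ fun j => by
    refine (limComp_apply D (LimCell.ext _ fun k => ?_) j).trans ((D.obj j).obj.unit_left i _)
    exact (D.obj k).obj.tgt_src i _
  unit_right i x := LimCell.ext _ fun j => by
    refine (limComp_apply D (LimCell.ext _ fun k => ?_) j).trans ((D.obj j).obj.unit_right i _)
    exact ((D.obj k).obj.src_tgt i _).symm
  assoc i x y z h1 h2 := LimCell.ext _ fun j => by
    have a : limTgt D i (limComp D i x y) = limSrc D i z := LimCell.ext _ fun k => by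
      show (D.obj k).obj.tgt i _ = (D.obj k).obj.src i (z.1 k)
      rw [limComp_apply D h1, (D.obj k).obj.tgt_comp i _ _ (limTgt_eq_src D h1 k)]
      exact limTgt_eq_src D h2 k
    have b : limTgt D i x = limSrc D i (limComp D i y z) := LimCell.ext _ fun k => by
      show (D.obj k).obj.tgt i (x.1 k) = (D.obj k).obj.src i _
      rw [limComp_apply D h2, (D.obj k).obj.src_comp i _ _ (limTgt_eq_src D h2 k)]
      exact limTgt_eq_src D h1 k
    rw [limComp_apply D a, limComp_apply D b, limComp_apply D h1, limComp_apply D h2]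
    exact (D.obj j).obj.assoc i _ _ _ (limTgt_eq_src D h1 j) (limTgt_eq_src D h2 j)
  interchange {i j} hij x y z w hxy hxz hyw := LimCell.ext _ fun k => by
    have d : limTgt D i z = limSrc D i w := LimCell.ext _ fun k => by
      show (D.obj k).obj.tgt i (z.1 k) = (D.obj k).obj.src i (w.1 k)
      have e1 := congrArg ((D.obj k).obj.tgt i) (limTgt_eq_src D hxz k)
      have e2 := congrArg ((D.obj k).obj.src i) (limTgt_eq_src D hyw k)
      rw [(D.obj k).obj.tgt_tgt_lo hij, (D.obj k).obj.tgt_src_lo hij] at e1
      rw [(D.obj k).obj.src_tgt_lo hij, (D.obj k).obj.src_src_lo hij] at e2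
      rw [← e1, ← e2]; exact limTgt_eq_src D hxy k
    have a : limTgt D j (limComp D i x y) = limSrc D j (limComp D i z w) :=
      LimCell.ext _ fun k => by
        show (D.obj k).obj.tgt j _ = (D.obj k).obj.src j _
        rw [limComp_apply D hxy, limComp_apply D d,
          (D.obj k).obj.tgt_comp_hi hij _ _ (limTgt_eq_src D hxy k),
          (D.obj k).obj.src_comp_hi hij _ _ (limTgt_eq_src D d k),
          limTgt_eq_src D hxz k, limTgt_eq_src D hyw k]
    have b : limTgt D i (limComp D j x z) = limSrc D i (limComp D j y w) :=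
      LimCell.ext _ fun k => by
        show (D.obj k).obj.tgt i _ = (D.obj k).obj.src i _
        rw [limComp_apply D hxz, limComp_apply D hyw,
          ← (D.obj k).obj.tgt_src_lo hij ((D.obj k).obj.comp j _ _),
          (D.obj k).obj.src_comp j _ _ (limTgt_eq_src D hxz k), (D.obj k).obj.tgt_src_lo hij,
          ← (D.obj k).obj.src_src_lo hij ((D.obj k).obj.comp j _ _),
          (D.obj k).obj.src_comp j _ _ (limTgt_eq_src D hyw k), (D.obj k).obj.src_src_lo hij]
        exact limTgt_eq_src D hxy k
    rw [limComp_apply D a, limComp_apply D b, limComp_apply D hxy, limComp_apply D hxz,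
      limComp_apply D hyw, limComp_apply D d]
    exact (D.obj k).obj.interchange hij _ _ _ _ (limTgt_eq_src D hxy k) (limTgt_eq_src D hxz k)
      (limTgt_eq_src D hyw k)

theorem limObj_dimLE : dimLE n (limObj D) := fun m hm x =>
  LimCell.ext _ fun j => (D.obj j).property m hm _

/-- A projection. -/
def limProj (j : J) : limObj D ⟶ (D.obj j).obj where
  toFun x := x.1 j
  map_src _ _ := rfl
  map_tgt _ _ := rfl
  map_comp _ _ _ h := limComp_apply D h j

/-- The limit cone. -/
def limCone : Cone D where
  pt := ⟨limObj D, limObj_dimLE D⟩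
  π :=
    { app := fun j => ObjectProperty.homMk (limProj D j)
      naturality := fun j k f => by
        ext1
        exact hom_ext_cell fun x => (x.2.1 f).symm }

theorem cone_w (s : Cone D) {j k : J} (f : j ⟶ k) (x : s.pt.obj.Cell) :
    (D.map f).hom.toFun ((s.π.app j).hom.toFun x) = (s.π.app k).hom.toFun x :=
  hom_congr (congrArg (fun F => F.hom) (s.w f)) x

/-- The functor into the limit. -/
def limLift (s : Cone D) : s.pt.obj ⟶ limObj D where
  toFun x := ⟨fun j => (s.π.app j).hom.toFun x, fun f => cone_w D s f x, by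
    obtain ⟨N, hN⟩ := s.pt.obj.finite_dim x
    exact ⟨N, fun j => hom_map_dim _ hN⟩⟩
  map_src i x := LimCell.ext _ fun j => (s.π.app j).hom.map_src i x
  map_tgt i x := LimCell.ext _ fun j => (s.π.app j).hom.map_tgt i x
  map_comp i x y h := LimCell.ext _ fun j => by
    refine Eq.trans ?_ (limComp_apply D (LimCell.ext _ fun k => ?_) j).symm
    · exact (s.π.app j).hom.map_comp i x y h
    · show (D.obj k).obj.tgt i _ = (D.obj k).obj.src i _
      exact ((s.π.app k).hom.map_tgt i x).symm.trans
        ((congrArg _ h).trans ((s.π.app k).hom.map_src i y))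

/-- The limit cone is limiting. -/
def limIsLimit : IsLimit (limCone D) where
  lift s := ObjectProperty.homMk (limLift D s)
  fac _ _ := rfl
  uniq s m hm := by
    ext1
    exact hom_ext_cell fun x => LimCell.ext _ fun j =>
      hom_congr (congrArg (fun F => F.hom) (hm j)) x

/-- The diagram as a family. -/
def toDiag : Diag where
  A := J
  obj j := (D.obj j).obj
  R j k := j ⟶ k
  map f := (D.map f).hom

/-- The colimit cocone. -/
def colimCocone : Cocone D where
  pt := (toDiag D).glue n
  ι :=
    { app := fun j => ObjectProperty.homMk ((toDiag D).ι n j)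
      naturality := fun j k f => by
        ext1
        exact (toDiag D).ι_comm n f }

/-- A cocone as a compatible family. -/
def coconeLegs (s : Limits.Cocone D) : (toDiag D).Cocone s.pt.obj where
  leg j := (s.ι.app j).hom
  comm f := congrArg (fun F => F.hom) (s.w f)

/-- The colimit cocone is colimiting. -/
def colimIsColimit : IsColimit (colimCocone D) where
  desc s := (toDiag D).desc (coconeLegs D s)
  fac _ _ := rfl
  uniq s m hm := (toDiag D).hom_ext fun j =>
    congrArg (fun F => F.hom) (hm j)

end OmegaCat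

instance hasLimits_nCat (n : ℕ∞) : HasLimitsOfSize.{0, 0} (NCat n) where
  has_limits_of_shape _ _ := { has_limit := fun D => ⟨⟨⟨_, OmegaCat.limIsLimit D⟩⟩⟩ }

instance hasColimits_nCat (n : ℕ∞) : HasColimitsOfSize.{0, 0} (NCat n) where
  has_colimits_of_shape _ _ := { has_colimit := fun D => ⟨⟨⟨_, OmegaCat.colimIsColimit D⟩⟩⟩ }

end Vale.Agent.P213
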