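import Vale.Agent.P213.Statement
import Vale.Agent.P213.Cat.Limits

/-!
# P213: the left adjoint `c_n` of the Street nerve of n-categories
-/

open CategoryTheory Limits Opposite

noncomputable section

namespace Vale.Agent.P213

/-- The simplices of a simplicial set, with their face and degeneracy operators. -/
def simplexDiag (K : SSet.{0}) : OmegaCat.Diag where
  A := Σ m : SimplexCategory, K.obj (op m)
  obj a := oriental.obj a.1
  R a b := {φ : a.1 ⟶ b.1 // K.map φ.op b.2 = a.2}
  map φ := oriental.map φ.1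

theorem nerve_map_down {X : OmegaCat} {a b : SimplexCategory} (φ : a ⟶ b)
    (σ : (nerve.obj X).obj (op b)) :
    ((nerve.obj X).map φ.op σ).down = oriental.map φ ≫ σ.down := rfl

/-- Maps into a nerve are the compatible families of functors out of orientals. -/
def simplexEquiv (K : SSet.{0}) (X : OmegaCat) :
    (simplexDiag K).Cocone X ≃ (K ⟶ nerve.obj X) where
  toFun c :=
    { app := fun m => ↾fun σ => ULift.up (c.leg ⟨m.unop, σ⟩)
      naturality := fun a b f => by
        ext σ
        exact congrArg ULift.up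
          (c.comm (a := ⟨b.unop, K.map f σ⟩) (b := ⟨a.unop, σ⟩) ⟨f.unop, rfl⟩).symm }
  invFun η :=
    { leg := fun a => (η.app (op a.1) a.2).down
      comm := fun {a b} φ => by
        obtain ⟨φ, hφ⟩ := φ
        show oriental.map φ ≫ _ = _
        rw [← nerve_map_down, ← hφ]
        exact congrArg ULift.down (NatTrans.naturality_apply η φ.op b.2).symm }
  left_inv c := rfl
  right_inv η := by
    ext m σ
    rfl

/-- The hom-sets bijection of `c_n ⊣ N_n`. -/
def cEquiv (n : ℕ∞) (K : SSet.{0}) (X : NCat n) :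
    ((simplexDiag K).glue n ⟶ X) ≃ (K ⟶ (nerveN n).obj X) :=
  ((simplexDiag K).equiv X).trans (simplexEquiv K X.obj)

theorem cEquiv_naturality (n : ℕ∞) (K : SSet.{0}) (X Y : NCat n) (g : X ⟶ Y)
    (h : (simplexDiag K).glue n ⟶ X) :
    cEquiv n K Y (h ≫ g) = cEquiv n K X h ≫ (nerveN n).map g := rfl

/-- `c_n`. -/
def cN (n : ℕ∞) : SSet.{0} ⥤ NCat n :=
  Adjunction.leftAdjointOfEquiv (cEquiv n) (cEquiv_naturality n)

/-- `c_n ⊣ N_n`. -/
def cAdj (n : ℕ∞) : cN n ⊣ nerveN n :=
  Adjunction.adjunctionOfEquivLeft (cEquiv n) (cEquiv_naturality n)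

/-- The inclusion of a simplex: `O_m ⟶ c_n K`. -/
def simplexι (n : ℕ∞) {K : SSet.{0}} (m : SimplexCategory) (σ : K.obj (op m)) :
    oriental.obj m ⟶ ((cN n).obj K).obj :=
  (simplexDiag K).ι n ⟨m, σ⟩

theorem simplexι_natural (n : ℕ∞) {K : SSet.{0}} {a b : SimplexCategory} (φ : a ⟶ b)
    (σ : K.obj (op b)) :
    oriental.map φ ≫ simplexι n b σ = simplexι n a (K.map φ.op σ) :=
  (simplexDiag K).ι_comm n (a := ⟨a, K.map φ.op σ⟩) (b := ⟨b, σ⟩) ⟨φ, rfl⟩

theorem simplexι_eq_unit (n : ℕ∞) {K : SSet.{0}} (m : SimplexCategory) (σ : K.obj (op m)) :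
    simplexι n m σ = (((cAdj n).unit.app K).app (op m) σ).down := rfl

/-- Functors out of `c_n K` are determined on simplices. -/
theorem cN_hom_ext (n : ℕ∞) {K : SSet.{0}} {X : NCat n} {F G : (cN n).obj K ⟶ X}
    (h : ∀ m σ, simplexι n m σ ≫ F.hom = simplexι n m σ ≫ G.hom) : F = G :=
  (simplexDiag K).hom_ext fun a => h a.1 a.2

theorem simplexι_map (n : ℕ∞) {K L : SSet.{0}} (f : K ⟶ L) (m : SimplexCategory)
    (σ : K.obj (op m)) :
    simplexι n m σ ≫ ((cN n).map f).hom = simplexι n m (f.app (op m) σ) := rfl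

/-- `O(E) = c_n N E`. -/
def catO (n : ℕ∞) (E : Type) [PartialOrder E] : NCat n := (cN n).obj (CategoryTheory.nerve E)

/-- The functor of a monotone map. -/
def catOMap (n : ℕ∞) {E F : Type} [PartialOrder E] [PartialOrder F] (f : E →o F) :
    catO n E ⟶ catO n F :=
  (cN n).map (CategoryTheory.nerveMap f.monotone.functor)

end Vale.Agent.P213
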