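import Vale.Agent.P213.Cat.Free

/-!
# P213: the n-category glued from a family of omega-categories and functors between them
-/

open CategoryTheory

namespace Vale.Agent.P213

namespace OmegaCat

/-- A family of omega-categories with gluing functors. -/
structure Diag : Type 1 where
  A : Type
  obj : A → OmegaCat
  R : A → A → Type
  map : ∀ {a b}, R a b → (obj a ⟶ obj b)

namespace Diag

variable (D : Diag)

/-- A compatible family of functors. -/
structure Cocone (Y : OmegaCat) : Type where
  leg : ∀ a, D.obj a ⟶ Y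
  comm : ∀ {a b} (r : D.R a b), D.map r ≫ leg b = leg a

/-- Valuations: compatible families of functors into n-categories. -/
def sys (n : ℕ∞) : Sys where
  G := Σ a, (D.obj a).Cell
  M Y f := dimLE n Y ∧ ∃ c : D.Cocone Y, f = fun g => (c.leg g.1).toFun g.2
  dim := by
    rintro ⟨a, x⟩
    obtain ⟨N, hN⟩ := (D.obj a).finite_dim x
    refine ⟨N, ?_⟩
    rintro Y f ⟨-, c, rfl⟩
    exact hom_map_dim _ hN

variable (n : ℕ∞)

/-- The glued n-category. -/
noncomputable def glue : NCat n := ⟨(D.sys n).free, (D.sys n).free_dimLE fun _ _ h => h.1⟩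

/-- The functors into the glued category. -/
noncomputable def ι (a : D.A) : D.obj a ⟶ (D.glue n).obj where
  toFun x := (D.sys n).incl ⟨a, x⟩
  map_src i x := Sys.free_ext (S := D.sys n) fun Y f hf => by
    refine Eq.trans ?_ (((D.sys n).lift hf).map_src i _).symm
    obtain ⟨-, c, rfl⟩ := hf
    exact (c.leg a).map_src i x
  map_tgt i x := Sys.free_ext (S := D.sys n) fun Y f hf => by
    refine Eq.trans ?_ (((D.sys n).lift hf).map_tgt i _).symm
    obtain ⟨-, c, rfl⟩ := hf
    exact (c.leg a).map_tgt i x
  map_comp i x y h := Sys.free_ext (S := D.sys n) fun Y f hf => by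
    refine Eq.trans ?_ (((D.sys n).lift hf).map_comp i _ _ ?_).symm
    · obtain ⟨-, c, rfl⟩ := hf
      exact (c.leg a).map_comp i x y h
    · refine Sys.free_ext (S := D.sys n) fun Z g hg => ?_
      refine (((D.sys n).lift hg).map_tgt i _).trans
        (Eq.trans ?_ (((D.sys n).lift hg).map_src i _).symm)
      obtain ⟨-, c, rfl⟩ := hg
      exact (((c.leg a).map_tgt i x).symm.trans (congrArg _ h)).trans ((c.leg a).map_src i y)

theorem ι_comm {a b : D.A} (r : D.R a b) : D.map r ≫ D.ι n b = D.ι n a := by
  refine hom_ext_cell fun x => ?_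
  apply Sys.free_ext; rintro Y f ⟨hY, c, rfl⟩
  show (c.leg b).toFun ((D.map r).toFun x) = (c.leg a).toFun x
  rw [← c.comm r]
  rfl

variable {n}

/-- The functor of a compatible family. -/
noncomputable def desc {Y : NCat n} (c : D.Cocone Y.obj) : D.glue n ⟶ Y :=
  ObjectProperty.homMk ((D.sys n).lift (f := fun g => (c.leg g.1).toFun g.2) ⟨Y.property, c, rfl⟩)

theorem ι_desc {Y : NCat n} (c : D.Cocone Y.obj) (a : D.A) :
    D.ι n a ≫ (D.desc c).hom = c.leg a := rfl

theorem hom_ext {Y : NCat n} {F G : D.glue n ⟶ Y}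
    (h : ∀ a, D.ι n a ≫ F.hom = D.ι n a ≫ G.hom) : F = G := by
  ext1
  exact Sys.free_hom_ext _ fun g => congrFun (congrArg Hom.toFun (h g.1)) g.2

/-- Functors out of the glued category are the compatible families. -/
noncomputable def equiv (Y : NCat n) : (D.glue n ⟶ Y) ≃ D.Cocone Y.obj where
  toFun F := ⟨fun a => D.ι n a ≫ F.hom, fun r => by rw [← Category.assoc, D.ι_comm n r]⟩
  invFun c := D.desc c
  left_inv F := D.hom_ext fun a => rfl
  right_inv c := rfl

end Diag

end OmegaCat

end Vale.Agent.P213
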