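import Vale.Agent.P213.Oriental

/-!
# P213: the orientals have finitely many cells

The functional sending a chain `v₀ < ... < v_q` to `det (v_a ^ (b + 1))` takes on a boundary the
value of a Vandermonde determinant, which is positive; this bounds the chains of a cell dimension
by dimension.
-/

open Finset

noncomputable section

namespace Vale.Agent.P213

namespace Oriental

variable {k : ℕ}

/-- The moment functional on basic chains. -/
def moment {q : ℕ} (c : Chain (Fin k) q) : ℤ :=
  (Matrix.of fun a b : Fin (q + 1) => ((c.1 a : ℕ) : ℤ) ^ ((b : ℕ) + 1)).det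

/-- The moment functional. -/
def mom (q : ℕ) : (Chain (Fin k) q →₀ ℤ) →ₗ[ℤ] ℤ := Finsupp.linearCombination ℤ moment

theorem one_le_sum_moment {q : ℕ} (c : Chain (Fin k) (q + 1)) :
    1 ≤ ∑ i : Fin (q + 2), (-1 : ℤ) ^ (i : ℕ) * moment (c.face i) := by
  set v : Fin (q + 2) → ℤ := fun a => ((c.1 a : ℕ) : ℤ)
  have e : (Matrix.vandermonde v).det = ∑ i : Fin (q + 2), (-1 : ℤ) ^ (i : ℕ) * moment (c.face i) := by
    rw [Matrix.det_succ_column_zero]
    refine Finset.sum_congr rfl fun i _ => ?_
    rw [Matrix.vandermonde_apply, Fin.val_zero, pow_zero, mul_one, moment]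
    congr 2
  rw [← e, Matrix.det_vandermonde]
  refine Int.lt_iff_add_one_le.1 (Finset.prod_pos fun i _ => Finset.prod_pos fun j hj => ?_)
  have h : c.1 i < c.1 j := c.2 (Finset.mem_Ioi.1 hj)
  simp only [v, sub_pos]
  exact_mod_cast h

theorem mom_single {q : ℕ} (c : Chain (Fin k) q) (a : ℤ) :
    mom q (Finsupp.single c a) = a * moment c := Finsupp.linearCombination_single ..

theorem sum_le_mom_bdry {q : ℕ} (v : Chain (Fin k) (q + 1) →₀ ℤ) (hv : ∀ c, 0 ≤ v c) :
    ∑ c ∈ v.support, v c ≤ mom q (bdry q v) := by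
  have e : mom q (bdry q v) =
      ∑ c ∈ v.support, v c * ∑ i : Fin (q + 2), (-1 : ℤ) ^ (i : ℕ) * moment (c.face i) := by
    conv_lhs => rw [← Finsupp.sum_single v, Finsupp.sum, map_sum, map_sum]
    refine Finset.sum_congr rfl fun c _ => ?_
    rw [bdry_single, map_zsmul, map_sum, smul_eq_mul]
    congr 1
    refine Finset.sum_congr rfl fun i _ => ?_
    rw [map_zsmul, mom_single, one_mul, smul_eq_mul]
  rw [e]
  exact Finset.sum_le_sum fun c _ => le_mul_of_one_le_right (hv c) (one_le_sum_moment c)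

theorem aug_apply {E : Type} [PartialOrder E] [Fintype (Chain E 0)] (v : Chain E 0 →₀ ℤ) :
    aug v = ∑ c, v c := by
  rw [aug, Finsupp.liftAddHom_apply, Finsupp.sum_fintype _ _ fun _ => rfl]
  rfl

theorem abs_mom_le {q : ℕ} (v : Chain (Fin k) q →₀ ℤ) {B : ℤ} (hB : ∀ c, |v c| ≤ B) :
    |mom q v| ≤ B * ∑ c : Chain (Fin k) q, |moment c| := by
  rw [mom, Finsupp.linearCombination_apply,
    Finsupp.sum_fintype v (fun c a => a • moment c) (fun c => zero_smul ℤ _), Finset.mul_sum]
  refine (Finset.abs_sum_le_sum_abs _ _).trans (Finset.sum_le_sum fun c _ => ?_)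
  rw [smul_eq_mul, abs_mul]
  exact mul_le_mul_of_nonneg_right (hB c) (abs_nonneg _)

/-- Bound on the coefficients of a cell in dimension `q`. -/
def coeffBound (k : ℕ) : ℕ → ℤ
  | 0 => 1
  | q + 1 => 2 * coeffBound k q * ∑ c : Chain (Fin k) q, |moment c|

theorem coeff_le (x : Table (Fin k)) :
    ∀ q c, x.neg q c ≤ coeffBound k q ∧ x.pos q c ≤ coeffBound k q := by
  intro q
  induction q with
  | zero =>
    intro c
    constructor
    · rw [show coeffBound k 0 = 1 from rfl, ← x.aug_neg, aug_apply]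
      exact Finset.single_le_sum (fun d _ => x.neg_nonneg 0 d) (Finset.mem_univ c)
    · rw [show coeffBound k 0 = 1 from rfl, ← x.aug_pos, aug_apply]
      exact Finset.single_le_sum (fun d _ => x.pos_nonneg 0 d) (Finset.mem_univ c)
  | succ q ih =>
    have hp := abs_mom_le (x.pos q) (B := coeffBound k q) fun c => by
      rw [abs_of_nonneg (x.pos_nonneg q c)]; exact (ih c).2
    have hn := abs_mom_le (x.neg q) (B := coeffBound k q) fun c => by
      rw [abs_of_nonneg (x.neg_nonneg q c)]; exact (ih c).1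
    have main : mom q (x.pos q - x.neg q) ≤ coeffBound k (q + 1) := by
      rw [map_sub, coeffBound, mul_assoc]
      linarith [le_abs_self (mom q (x.pos q)), neg_abs_le (mom q (x.neg q))]
    have key : ∀ (v : Chain (Fin k) (q + 1) →₀ ℤ), (∀ c, 0 ≤ v c) →
        bdry q v = x.pos q - x.neg q → ∀ c, v c ≤ coeffBound k (q + 1) := by
      intro v hv hb c
      refine le_trans ?_ ((sum_le_mom_bdry v hv).trans (hb ▸ main))
      by_cases hc : c ∈ v.support
      · exact Finset.single_le_sum (fun d _ => hv d) hc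
      · rw [Finsupp.notMem_support_iff.1 hc]
        exact Finset.sum_nonneg fun d _ => hv d
    exact fun c => ⟨key _ (x.neg_nonneg _) (x.bdry_neg q) c, key _ (x.pos_nonneg _) (x.bdry_pos q) c⟩

theorem chain_isEmpty {q : ℕ} (h : k ≤ q) : IsEmpty (Chain (Fin k) q) :=
  ⟨fun c => by
    have := Fintype.card_le_of_injective c.1 c.2.injective
    simp at this
    omega⟩

/-- The orientals have finitely many cells. -/
instance finite_cell (k : ℕ) : Finite (ori (Fin k)).Cell := by
  let φ : Table (Fin k) → ∀ q : Fin k, Chain (Fin k) q →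
      (Set.Icc (0 : ℤ) (coeffBound k q) × Set.Icc (0 : ℤ) (coeffBound k q)) := fun x q c =>
    (⟨x.neg q c, x.neg_nonneg q c, (coeff_le x q c).1⟩,
      ⟨x.pos q c, x.pos_nonneg q c, (coeff_le x q c).2⟩)
  refine Finite.of_injective (β := ∀ q : Fin k, Chain (Fin k) q →
      (Set.Icc (0 : ℤ) (coeffBound k q) × Set.Icc (0 : ℤ) (coeffBound k q))) φ fun x y h => ?_
  refine Table.ext' fun q => ?_
  rcases lt_or_ge q k with hq | hq
  · constructor <;> ext c
    · exact congrArg (fun z => z.1.1) (congrFun (congrFun h ⟨q, hq⟩) c)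
    · exact congrArg (fun z => z.2.1) (congrFun (congrFun h ⟨q, hq⟩) c)
  · have := chain_isEmpty (k := k) hq
    exact ⟨Subsingleton.elim _ _, Subsingleton.elim _ _⟩

end Oriental

end Vale.Agent.P213
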