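import Vale.Agent.P213.Cat.Germ
import Vale.Agent.P213.Cat.Finite
import Vale.Agent.P213.Statement

/-!
# P213: the Street nerve preserves filtered colimits
-/

open CategoryTheory Limits Opposite

noncomputable section

namespace Vale.Agent.P213

namespace OmegaCat

theorem exists_dim_bound (X : OmegaCat) [Finite X.Cell] : ∃ N, ∀ x, X.src N x = x := by
  classical
  have := Fintype.ofFinite X.Cell
  choose d hd using X.finite_dim
  exact ⟨Finset.univ.sup d, fun x => X.src_of_le (Finset.le_sup (Finset.mem_univ x)) (hd x)⟩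

theorem comp_self_of_dim (X : OmegaCat) {i : ℕ} {x : X.Cell} (hx : X.src i x = x) :
    X.comp i x x = x := by
  have h := X.unit_left i x
  rwa [hx] at h

theorem eq_of_composable (X : OmegaCat) {i : ℕ} {x y : X.Cell} (hx : X.src i x = x)
    (hy : X.src i y = y) (h : X.tgt i x = X.src i y) : x = y :=
  (X.tgt_of_src hx).symm.trans (h.trans hy)

variable {n : ℕ∞} {J : Type} [SmallCategory J] [IsFiltered J] (D : J ⥤ NCat n)
variable (X : OmegaCat) [Finite X.Cell]

/-- Functors from a category with finitely many cells into a filtered colimit lift to a stage. -/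
theorem exists_lift_stage (F : X ⟶ germObj D) :
    ∃ (j : J) (G : X ⟶ (D.obj j).obj), G ≫ germι D j = F := by
  classical
  obtain ⟨N, hN⟩ := X.exists_dim_bound
  obtain ⟨j, r, hr⟩ := exists_stage D F.toFun
  let L := X.Cell × Fin (N + 1)
  let P := {t : L × X.Cell // X.tgt t.1.2 t.1.1 = X.src t.1.2 t.2}
  obtain ⟨k₀, f₀, h₀⟩ := exists_eq_stage D (ι := L ⊕ L)
    (Sum.elim (fun t => r (X.src t.2 t.1)) (fun t => r (X.tgt t.2 t.1)))
    (Sum.elim (fun t => (D.obj j).obj.src t.2 (r t.1)) (fun t => (D.obj j).obj.tgt t.2 (r t.1)))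
    fun t => by
    rcases t with t | t
    · exact (hr _).trans ((F.map_src _ _).trans (congrArg (germSrc D t.2) (hr t.1).symm))
    · exact (hr _).trans ((F.map_tgt _ _).trans (congrArg (germTgt D t.2) (hr t.1).symm))
  let s : X.Cell → (D.obj k₀).obj.Cell := fun x => tr D f₀ (r x)
  have hs : ∀ (i : Fin (N + 1)) x, s (X.src i x) = (D.obj k₀).obj.src i (s x) ∧
      s (X.tgt i x) = (D.obj k₀).obj.tgt i (s x) := fun i x =>
    ⟨(h₀ (Sum.inl (x, i))).trans (germ_map_hom D f₀ i _).1,
      (h₀ (Sum.inr (x, i))).trans (germ_map_hom D f₀ i _).2⟩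
  have hsg : ∀ x, germ D k₀ (s x) = F.toFun x := fun x => (germ_tr D f₀ _).trans (hr x)
  have hcompos : ∀ t : P, (D.obj k₀).obj.tgt t.1.1.2 (s t.1.1.1) =
      (D.obj k₀).obj.src t.1.1.2 (s t.1.2) := fun t => by
    rw [← (hs _ _).2, ← (hs _ _).1, t.2]
  obtain ⟨k, f, hf⟩ := exists_eq_stage D (ι := P)
    (fun t => s (X.comp t.1.1.2 t.1.1.1 t.1.2))
    (fun t => (D.obj k₀).obj.comp t.1.1.2 (s t.1.1.1) (s t.1.2)) fun t => by
    rw [hsg, ← germComp_mk D (hcompos t), hsg, hsg]
    exact F.map_comp _ _ _ t.2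
  have hdim : ∀ x, (D.obj k).obj.src N (tr D f (s x)) = tr D f (s x) := fun x => by
    rw [← (germ_map_hom D f N _).1, ← (hs ⟨N, by omega⟩ x).1, hN]
  refine ⟨k, ⟨fun x => tr D f (s x), fun i x => ?_, fun i x => ?_, fun i x y h => ?_⟩,
    hom_ext_cell fun x => (germ_tr D f _).trans (hsg x)⟩
  · rcases le_or_gt i N with hi | hi
    · rw [(hs ⟨i, by omega⟩ x).1, (germ_map_hom D f i _).1]
    · rw [X.src_of_le hi.le (hN x), (D.obj k).obj.src_of_le hi.le (hdim x)]
  · rcases le_or_gt i N with hi | hi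
    · rw [(hs ⟨i, by omega⟩ x).2, (germ_map_hom D f i _).2]
    · rw [X.tgt_of_src (X.src_of_le hi.le (hN x)),
        (D.obj k).obj.tgt_of_src ((D.obj k).obj.src_of_le hi.le (hdim x))]
  · rcases le_or_gt i N with hi | hi
    · exact (hf ⟨((x, ⟨i, by omega⟩), y), h⟩).trans
        ((D.map f).hom.map_comp i _ _ (hcompos ⟨((x, ⟨i, by omega⟩), y), h⟩))
    · obtain rfl := X.eq_of_composable (X.src_of_le hi.le (hN x)) (X.src_of_le hi.le (hN y)) h
      rw [X.comp_self_of_dim (X.src_of_le hi.le (hN x)),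
        (D.obj k).obj.comp_self_of_dim ((D.obj k).obj.src_of_le hi.le (hdim x))]

/-- Two such functors equal in the colimit are equal at a later stage. -/
theorem exists_eq_lift {j : J} (G G' : X ⟶ (D.obj j).obj) (h : G ≫ germι D j = G' ≫ germι D j) :
    ∃ (k : J) (f : j ⟶ k), G ≫ (D.map f).hom = G' ≫ (D.map f).hom := by
  obtain ⟨k, f, hf⟩ := exists_eq_stage D G.toFun G'.toFun fun x => hom_congr h x
  exact ⟨k, f, hom_ext_cell hf⟩

end OmegaCat

open OmegaCat in
/-- The nerve preserves filtered colimits. -/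
theorem nerveN_filtered (n : ℕ∞) (J : Type) [SmallCategory J] [IsFiltered J] :
    PreservesColimitsOfShape J (nerveN n) where
  preservesColimit {D} := by
    refine preservesColimit_of_preserves_colimit_cocone (germIsColimit D) ?_
    refine evaluationJointlyReflectsColimits _ fun m => ?_
    have : Finite (oriental.obj m.unop).Cell := Oriental.finite_cell _
    refine Types.FilteredColimit.isColimitOf' _ _ (fun x => ?_) (fun j x y hxy => ?_)
    · obtain ⟨j, G, hG⟩ := exists_lift_stage D (oriental.obj m.unop) x.down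
      exact ⟨j, ULift.up G, congrArg ULift.up hG.symm⟩
    · obtain ⟨k, f, hf⟩ := exists_eq_lift D (oriental.obj m.unop) x.down y.down
        (congrArg ULift.down hxy)
      exact ⟨k, f, congrArg ULift.up hf⟩

end Vale.Agent.P213
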