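import Vale.Agent.P213.OmegaCat

/-!
# P213: omega-categories presented by generators and a class of models

A system consists of generators and, for every omega-category, the admissible valuations of the
generators. The presented category has as cells the terms composable under every valuation, two
terms being equal when they have equal values under every valuation.
-/

open CategoryTheory

namespace Vale.Agent.P213

namespace OmegaCat

theorem src_of_le (X : OmegaCat) {i j : ℕ} (h : i ≤ j) {x : X.Cell} (hx : X.src i x = x) :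
    X.src j x = x := by
  rcases h.lt_or_eq with h | rfl
  · conv_lhs => rw [← hx, X.src_src_hi h]
    exact hx
  · exact hx

theorem tgt_of_src (X : OmegaCat) {i : ℕ} {x : X.Cell} (hx : X.src i x = x) : X.tgt i x = x := by
  rw [← hx, X.tgt_src]

theorem hom_map_dim {X Y : OmegaCat} (f : X ⟶ Y) {i : ℕ} {x : X.Cell} (hx : X.src i x = x) :
    Y.src i (f.toFun x) = f.toFun x := by rw [← f.map_src, hx]

theorem hom_ext_cell {X Y : OmegaCat} {f g : X ⟶ Y} (h : ∀ x, f.toFun x = g.toFun x) : f = g :=
  Hom.ext (funext h)

/-- Formal expressions in a set of generators. -/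
inductive Term (G : Type) : Type
  | gen (g : G)
  | src (i : ℕ) (t : Term G)
  | tgt (i : ℕ) (t : Term G)
  | comp (i : ℕ) (t u : Term G)

/-- Generators with their admissible valuations, of bounded dimension on each generator. -/
structure Sys : Type 1 where
  G : Type
  M : ∀ Y : OmegaCat, (G → Y.Cell) → Prop
  dim : ∀ g, ∃ N, ∀ Y f, M Y f → Y.src N (f g) = f g

namespace Sys

variable (S : Sys)

/-- The value of a term. -/
def eval (Y : OmegaCat) (f : S.G → Y.Cell) : Term S.G → Y.Cell
  | .gen g => f g
  | .src i t => Y.src i (eval Y f t)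
  | .tgt i t => Y.tgt i (eval Y f t)
  | .comp i t u => Y.comp i (eval Y f t) (eval Y f u)

/-- Two terms composable under every valuation. -/
def Composable (i : ℕ) (t u : Term S.G) : Prop :=
  ∀ Y f, S.M Y f → Y.tgt i (S.eval Y f t) = Y.src i (S.eval Y f u)

/-- Well formed terms. -/
inductive Valid : Term S.G → Prop
  | gen (g) : Valid (.gen g)
  | src (i) {t} : Valid t → Valid (.src i t)
  | tgt (i) {t} : Valid t → Valid (.tgt i t)
  | comp {i t u} : Valid t → Valid u → S.Composable i t u → Valid (.comp i t u)

theorem valid_dim {t : Term S.G} (ht : S.Valid t) :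
    ∃ N, ∀ Y f, S.M Y f → Y.src N (S.eval Y f t) = S.eval Y f t := by
  induction ht with
  | gen g => exact S.dim g
  | src i _ _ => exact ⟨i, fun Y f _ => Y.src_src i _⟩
  | tgt i _ _ => exact ⟨i, fun Y f _ => Y.src_tgt i _⟩
  | @comp i t u _ _ hc ht hu =>
    obtain ⟨N, hN⟩ := ht
    obtain ⟨N', hN'⟩ := hu
    refine ⟨max (max N N') (i + 1), fun Y f hf => ?_⟩
    show Y.src _ (Y.comp i _ _) = Y.comp i _ _
    rw [Y.src_comp_hi (by omega) _ _ (hc Y f hf),
      Y.src_of_le (i := N) (by omega) (hN Y f hf), Y.src_of_le (i := N') (by omega) (hN' Y f hf)]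

/-- Equality of values under every valuation. -/
def setoid : Setoid {t : Term S.G // S.Valid t} where
  r t u := ∀ Y f, S.M Y f → S.eval Y f t.1 = S.eval Y f u.1
  iseqv := ⟨fun _ _ _ _ => rfl, fun h Y f hf => (h Y f hf).symm,
    fun h h' Y f hf => (h Y f hf).trans (h' Y f hf)⟩

/-- The cells of the presented category. -/
abbrev Cell : Type := Quotient S.setoid

/-- The value of a cell. -/
def val {Y : OmegaCat} {f : S.G → Y.Cell} (hf : S.M Y f) : S.Cell → Y.Cell :=
  Quotient.lift (fun t => S.eval Y f t.1) fun _ _ h => h Y f hf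

variable {S}

theorem cell_ext {x y : S.Cell} (h : ∀ Y f (hf : S.M Y f), S.val hf x = S.val hf y) : x = y := by
  induction x using Quotient.inductionOn with | h t => ?_
  induction y using Quotient.inductionOn with | h u => ?_
  exact Quotient.sound h

variable (S)

/-- The source. -/
def src (i : ℕ) : S.Cell → S.Cell :=
  Quotient.lift (fun t => Quotient.mk S.setoid ⟨.src i t.1, .src i t.2⟩) fun _ _ h =>
    Quotient.sound fun Y f hf => congrArg (Y.src i) (h Y f hf)

/-- The target. -/
def tgt (i : ℕ) : S.Cell → S.Cell :=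
  Quotient.lift (fun t => Quotient.mk S.setoid ⟨.tgt i t.1, .tgt i t.2⟩) fun _ _ h =>
    Quotient.sound fun Y f hf => congrArg (Y.tgt i) (h Y f hf)

open Classical in
/-- The composite (the first argument when the pair is not composable). -/
noncomputable def comp (i : ℕ) : S.Cell → S.Cell → S.Cell :=
  Quotient.lift₂
    (fun t u => if h : S.Composable i t.1 u.1 then
      Quotient.mk S.setoid ⟨.comp i t.1 u.1, .comp t.2 u.2 h⟩ else Quotient.mk S.setoid t)
    fun t u t' u' ht hu => by
      by_cases h : S.Composable i t.1 u.1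
      · have h' : S.Composable i t'.1 u'.1 := fun Y f hf => by
          rw [← ht Y f hf, ← hu Y f hf]; exact h Y f hf
        rw [dif_pos h, dif_pos h']
        refine Quotient.sound fun Y f hf => ?_
        show Y.comp i _ _ = Y.comp i _ _
        rw [ht Y f hf, hu Y f hf]
      · have h' : ¬ S.Composable i t'.1 u'.1 := fun h' => h fun Y f hf => by
          rw [ht Y f hf, hu Y f hf]; exact h' Y f hf
        rw [dif_neg h, dif_neg h']
        exact Quotient.sound ht

theorem val_src {Y : OmegaCat} {f : S.G → Y.Cell} (hf : S.M Y f) (i : ℕ) (x : S.Cell) :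
    S.val hf (S.src i x) = Y.src i (S.val hf x) := Quotient.inductionOn x fun _ => rfl

theorem val_tgt {Y : OmegaCat} {f : S.G → Y.Cell} (hf : S.M Y f) (i : ℕ) (x : S.Cell) :
    S.val hf (S.tgt i x) = Y.tgt i (S.val hf x) := Quotient.inductionOn x fun _ => rfl

theorem composable_val {i : ℕ} {x y : S.Cell} (h : S.tgt i x = S.src i y) {Y : OmegaCat}
    {f : S.G → Y.Cell} (hf : S.M Y f) : Y.tgt i (S.val hf x) = Y.src i (S.val hf y) := by
  rw [← val_tgt, ← val_src, h]

theorem val_comp {Y : OmegaCat} {f : S.G → Y.Cell} (hf : S.M Y f) {i : ℕ} {x y : S.Cell}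
    (h : S.tgt i x = S.src i y) :
    S.val hf (S.comp i x y) = Y.comp i (S.val hf x) (S.val hf y) := by
  induction x using Quotient.inductionOn with | h t => ?_
  induction y using Quotient.inductionOn with | h u => ?_
  classical
  have hc : S.Composable i t.1 u.1 := fun Y f hf => Quotient.exact h Y f hf
  show S.val hf (dite _ _ _) = _
  rw [dif_pos hc]
  rfl

/-- The presented omega-category. -/
noncomputable def free : OmegaCat where
  Cell := S.Cell
  src := S.src
  tgt := S.tgt
  comp := S.comp
  src_src i x := cell_ext fun Y f hf => by simp [val_src, Y.src_src]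
  tgt_src i x := cell_ext fun Y f hf => by simp [val_src, val_tgt, Y.tgt_src]
  src_tgt i x := cell_ext fun Y f hf => by simp [val_src, val_tgt, Y.src_tgt]
  tgt_tgt i x := cell_ext fun Y f hf => by simp [val_tgt, Y.tgt_tgt]
  src_src_lo h x := cell_ext fun Y f hf => by simp [val_src, Y.src_src_lo h]
  src_tgt_lo h x := cell_ext fun Y f hf => by simp [val_src, val_tgt, Y.src_tgt_lo h]
  tgt_src_lo h x := cell_ext fun Y f hf => by simp [val_src, val_tgt, Y.tgt_src_lo h]
  tgt_tgt_lo h x := cell_ext fun Y f hf => by simp [val_tgt, Y.tgt_tgt_lo h]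
  src_src_hi h x := cell_ext fun Y f hf => by simp [val_src, Y.src_src_hi h]
  src_tgt_hi h x := cell_ext fun Y f hf => by simp [val_src, val_tgt, Y.src_tgt_hi h]
  tgt_src_hi h x := cell_ext fun Y f hf => by simp [val_src, val_tgt, Y.tgt_src_hi h]
  tgt_tgt_hi h x := cell_ext fun Y f hf => by simp [val_tgt, Y.tgt_tgt_hi h]
  finite_dim x := Quotient.inductionOn x fun t => by
    obtain ⟨N, hN⟩ := S.valid_dim t.2
    exact ⟨N, cell_ext fun Y f hf => hN Y f hf⟩
  src_comp i x y h := cell_ext fun Y f hf => by
    rw [val_src, val_comp S hf h, val_src, Y.src_comp i _ _ (S.composable_val h hf)]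
  tgt_comp i x y h := cell_ext fun Y f hf => by
    rw [val_tgt, val_comp S hf h, val_tgt, Y.tgt_comp i _ _ (S.composable_val h hf)]
  src_comp_hi {i j} hij x y h := by
    have h' : S.tgt i (S.src j x) = S.src i (S.src j y) := cell_ext fun Y f hf => by
      simp [val_src, val_tgt, Y.tgt_src_lo hij, Y.src_src_lo hij, S.composable_val h hf]
    refine cell_ext fun Y f hf => ?_
    rw [val_src, val_comp S hf h, val_comp S hf h', val_src, val_src,
      Y.src_comp_hi hij _ _ (S.composable_val h hf)]
  tgt_comp_hi {i j} hij x y h := by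
    have h' : S.tgt i (S.tgt j x) = S.src i (S.tgt j y) := cell_ext fun Y f hf => by
      simp [val_src, val_tgt, Y.tgt_tgt_lo hij, Y.src_tgt_lo hij, S.composable_val h hf]
    refine cell_ext fun Y f hf => ?_
    rw [val_tgt, val_comp S hf h, val_comp S hf h', val_tgt, val_tgt,
      Y.tgt_comp_hi hij _ _ (S.composable_val h hf)]
  unit_left i x := cell_ext fun Y f hf => by
    rw [val_comp S hf (cell_ext fun Y f hf => by simp [val_src, val_tgt, Y.tgt_src]), val_src,
      Y.unit_left]
  unit_right i x := cell_ext fun Y f hf => by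
    rw [val_comp S hf (cell_ext fun Y f hf => by simp [val_src, val_tgt, Y.src_tgt]), val_tgt,
      Y.unit_right]
  assoc i x y z h1 h2 := by
    have h12 : S.tgt i (S.comp i x y) = S.src i z := cell_ext fun Y f hf => by
      rw [val_tgt, val_comp S hf h1, Y.tgt_comp i _ _ (S.composable_val h1 hf), val_src]
      exact S.composable_val h2 hf
    have h23 : S.tgt i x = S.src i (S.comp i y z) := cell_ext fun Y f hf => by
      rw [val_src, val_comp S hf h2, Y.src_comp i _ _ (S.composable_val h2 hf), val_tgt]
      exact S.composable_val h1 hf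
    refine cell_ext fun Y f hf => ?_
    rw [val_comp S hf h12, val_comp S hf h23, val_comp S hf h1, val_comp S hf h2,
      Y.assoc i _ _ _ (S.composable_val h1 hf) (S.composable_val h2 hf)]
  interchange {i j} hij x y z w hxy hxz hyw := by
    have hzw : S.tgt i z = S.src i w := cell_ext fun Y f hf => by
      have e1 := congrArg (Y.tgt i) (S.composable_val hxz hf)
      have e2 := congrArg (Y.src i) (S.composable_val hyw hf)
      rw [Y.tgt_tgt_lo hij, Y.tgt_src_lo hij] at e1
      rw [Y.src_tgt_lo hij, Y.src_src_lo hij] at e2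
      rw [val_tgt, val_src, ← e1, ← e2, S.composable_val hxy hf]
    have hj : S.tgt j (S.comp i x y) = S.src j (S.comp i z w) := cell_ext fun Y f hf => by
      rw [val_tgt, val_src, val_comp S hf hxy, val_comp S hf hzw,
        Y.tgt_comp_hi hij _ _ (S.composable_val hxy hf),
        Y.src_comp_hi hij _ _ (S.composable_val hzw hf),
        S.composable_val hxz hf, S.composable_val hyw hf]
    have hi : S.tgt i (S.comp j x z) = S.src i (S.comp j y w) := cell_ext fun Y f hf => by
      have a := S.composable_val hxz hf
      have b := S.composable_val hyw hf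
      rw [val_tgt, val_src, val_comp S hf hxz, val_comp S hf hyw,
        ← Y.tgt_src_lo hij (Y.comp j _ _), Y.src_comp j _ _ a, Y.tgt_src_lo hij,
        ← Y.src_src_lo hij (Y.comp j _ _), Y.src_comp j _ _ b, Y.src_src_lo hij]
      exact S.composable_val hxy hf
    refine cell_ext fun Y f hf => ?_
    rw [val_comp S hf hj, val_comp S hf hi, val_comp S hf hxy, val_comp S hf hzw,
      val_comp S hf hxz, val_comp S hf hyw,
      Y.interchange hij _ _ _ _ (S.composable_val hxy hf) (S.composable_val hxz hf)
        (S.composable_val hyw hf)]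

/-- The generators. -/
def incl (g : S.G) : S.free.Cell := Quotient.mk S.setoid ⟨.gen g, .gen g⟩

/-- The functor of a valuation. -/
def lift {Y : OmegaCat} {f : S.G → Y.Cell} (hf : S.M Y f) : S.free ⟶ Y where
  toFun := S.val hf
  map_src := S.val_src hf
  map_tgt := S.val_tgt hf
  map_comp _ _ _ h := S.val_comp hf h

theorem lift_incl {Y : OmegaCat} {f : S.G → Y.Cell} (hf : S.M Y f) (g : S.G) :
    (S.lift hf).toFun (S.incl g) = f g := rfl

theorem free_ext {x y : S.free.Cell}
    (h : ∀ Y f (hf : S.M Y f), (S.lift hf).toFun x = (S.lift hf).toFun y) : x = y :=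
  cell_ext h

/-- Functors out of the presented category are determined by the generators. -/
theorem free_hom_ext {Y : OmegaCat} {F G : S.free ⟶ Y}
    (h : ∀ g, F.toFun (S.incl g) = G.toFun (S.incl g)) : F = G := by
  refine hom_ext_cell fun x => Quotient.inductionOn x fun t => ?_
  obtain ⟨t, ht⟩ := t
  induction ht with
  | gen g => exact h g
  | @src i t ht ih =>
    exact (F.map_src i (Quotient.mk S.setoid ⟨t, ht⟩)).trans
      ((congrArg (Y.src i) ih).trans (G.map_src i _).symm)
  | @tgt i t ht ih =>
    exact (F.map_tgt i (Quotient.mk S.setoid ⟨t, ht⟩)).trans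
      ((congrArg (Y.tgt i) ih).trans (G.map_tgt i _).symm)
  | @comp i t u ht hu hc iht ihu =>
    classical
    have hh : S.free.tgt i (Quotient.mk S.setoid ⟨t, ht⟩) =
        S.free.src i (Quotient.mk S.setoid ⟨u, hu⟩) := Quotient.sound hc
    have e : S.free.comp i (Quotient.mk S.setoid ⟨t, ht⟩) (Quotient.mk S.setoid ⟨u, hu⟩) =
        Quotient.mk S.setoid ⟨.comp i t u, .comp ht hu hc⟩ := dif_pos hc
    rw [← e, F.map_comp i _ _ hh, G.map_comp i _ _ hh, iht, ihu]

theorem free_dimLE {n : ℕ∞} (h : ∀ Y f, S.M Y f → dimLE n Y) : dimLE n S.free :=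
  fun m hm x => cell_ext fun Y f hf =>
    (S.val_src hf m x).trans (h Y f hf m hm _)

end Sys

end OmegaCat

end Vale.Agent.P213
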