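import Vale.Agent.P213.Cat.Limits

/-!
# P213: filtered colimits of n-categories are computed on cells
-/

open CategoryTheory Limits

noncomputable section

namespace Vale.Agent.P213

namespace OmegaCat

variable {n : ℕ∞} {J : Type} [SmallCategory J] [IsFiltered J] (D : J ⥤ NCat n)

/-- The transition on cells. -/
abbrev tr {j k : J} (f : j ⟶ k) : (D.obj j).obj.Cell → (D.obj k).obj.Cell := (D.map f).hom.toFun

omit [IsFiltered J] in
theorem tr_id (j : J) (x : (D.obj j).obj.Cell) : tr D (𝟙 j) x = x := by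
  simp only [tr, D.map_id]; rfl

omit [IsFiltered J] in
theorem tr_comp {i j k : J} (f : i ⟶ j) (g : j ⟶ k) (x : (D.obj i).obj.Cell) :
    tr D (f ≫ g) x = tr D g (tr D f x) := by
  simp only [tr, D.map_comp]; rfl

/-- Cells at some stage, identified when they agree at a later one. -/
def germSetoid : Setoid (Σ j, (D.obj j).obj.Cell) where
  r x y := ∃ (k : J) (f : x.1 ⟶ k) (g : y.1 ⟶ k), tr D f x.2 = tr D g y.2
  iseqv := by
    refine ⟨fun x => ⟨_, 𝟙 _, 𝟙 _, rfl⟩, fun ⟨k, f, g, h⟩ => ⟨k, g, f, h.symm⟩, ?_⟩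
    rintro x y z ⟨k, f, g, h⟩ ⟨k', f', g', h'⟩
    obtain ⟨l, fl, gl, -⟩ := IsFilteredOrEmpty.cocone_objs k k'
    obtain ⟨m, u, hu⟩ := IsFilteredOrEmpty.cocone_maps (g ≫ fl) (f' ≫ gl)
    refine ⟨m, f ≫ fl ≫ u, g' ≫ gl ≫ u, ?_⟩
    rw [tr_comp, h, ← tr_comp, ← Category.assoc, hu, Category.assoc, tr_comp, h', ← tr_comp]

/-- The cells of the filtered colimit. -/
abbrev GermCell : Type := Quotient (germSetoid D)

/-- The class of a cell at a stage. -/
abbrev germ (j : J) (x : (D.obj j).obj.Cell) : GermCell D := Quotient.mk (germSetoid D) ⟨j, x⟩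

theorem germ_tr {j k : J} (f : j ⟶ k) (x : (D.obj j).obj.Cell) :
    germ D k (tr D f x) = germ D j x :=
  Quotient.sound ⟨k, 𝟙 k, f, by rw [tr_id]⟩

theorem germ_surj (x : GermCell D) : ∃ j a, germ D j a = x :=
  Quotient.inductionOn x fun a => ⟨a.1, a.2, rfl⟩

theorem germ_eq_iff {j : J} {x y : (D.obj j).obj.Cell} :
    germ D j x = germ D j y ↔ ∃ (k : J) (f : j ⟶ k), tr D f x = tr D f y := by
  constructor
  · intro h
    obtain ⟨k, f, g, hfg⟩ := Quotient.exact h
    refine ⟨IsFiltered.coeq f g, f ≫ IsFiltered.coeqHom f g, ?_⟩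
    rw [tr_comp, hfg, ← tr_comp, IsFiltered.coeq_condition]
  · rintro ⟨k, f, h⟩
    exact Quotient.sound ⟨k, f, f, h⟩

/-- Finitely many classes have representatives at one stage. -/
theorem exists_stage {ι : Type} [Finite ι] (x : ι → GermCell D) :
    ∃ (j : J) (a : ι → (D.obj j).obj.Cell), ∀ t, germ D j (a t) = x t := by
  classical
  have := Fintype.ofFinite ι
  choose s a ha using fun t => germ_surj D (x t)
  obtain ⟨j, hj⟩ := IsFiltered.sup_objs_exists (Finset.univ.image s)
  choose g hg using fun t => show ∃ g : s t ⟶ j, True from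
    ⟨(hj (Finset.mem_image_of_mem s (Finset.mem_univ t))).some, trivial⟩
  exact ⟨j, fun t => tr D (g t) (a t), fun t => by rw [germ_tr, ha]⟩

/-- Finitely many equalities of classes hold at one later stage. -/
theorem exists_eq_stage {ι : Type} [Finite ι] {j : J} (x y : ι → (D.obj j).obj.Cell)
    (h : ∀ t, germ D j (x t) = germ D j (y t)) :
    ∃ (k : J) (f : j ⟶ k), ∀ t, tr D f (x t) = tr D f (y t) := by
  classical
  have := Fintype.ofFinite ι
  suffices ∀ S : Finset ι, ∃ (k : J) (f : j ⟶ k), ∀ t ∈ S, tr D f (x t) = tr D f (y t) by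
    obtain ⟨k, f, hf⟩ := this Finset.univ
    exact ⟨k, f, fun t => hf t (Finset.mem_univ t)⟩
  intro S
  induction S using Finset.induction with
  | empty => exact ⟨j, 𝟙 j, by simp⟩
  | insert a S _ ih =>
    obtain ⟨k, f, hf⟩ := ih
    obtain ⟨l, g, hg⟩ := (germ_eq_iff D (x := tr D f (x a)) (y := tr D f (y a))).1
      (by rw [germ_tr, germ_tr]; exact h a)
    refine ⟨l, f ≫ g, fun t ht => ?_⟩
    rw [tr_comp, tr_comp]
    rcases Finset.mem_insert.1 ht with rfl | ht
    · exact hg
    · rw [hf t ht]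

theorem exists_stage₂ (x y : GermCell D) :
    ∃ (j : J) (a b : (D.obj j).obj.Cell), germ D j a = x ∧ germ D j b = y := by
  obtain ⟨j, a, ha⟩ := exists_stage D ![x, y]
  exact ⟨j, a 0, a 1, ha 0, ha 1⟩

omit [IsFiltered J] in
theorem germ_map_hom {j k : J} (f : j ⟶ k) (i : ℕ) (x : (D.obj j).obj.Cell) :
    tr D f ((D.obj j).obj.src i x) = (D.obj k).obj.src i (tr D f x) ∧
      tr D f ((D.obj j).obj.tgt i x) = (D.obj k).obj.tgt i (tr D f x) :=
  ⟨(D.map f).hom.map_src i x, (D.map f).hom.map_tgt i x⟩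

/-- The source of a class. -/
def germSrc (i : ℕ) : GermCell D → GermCell D :=
  Quotient.lift (fun a => germ D a.1 ((D.obj a.1).obj.src i a.2)) fun a b ⟨k, f, g, h⟩ =>
    Quotient.sound ⟨k, f, g, by rw [(germ_map_hom D f i _).1, (germ_map_hom D g i _).1, h]⟩

/-- The target of a class. -/
def germTgt (i : ℕ) : GermCell D → GermCell D :=
  Quotient.lift (fun a => germ D a.1 ((D.obj a.1).obj.tgt i a.2)) fun a b ⟨k, f, g, h⟩ =>
    Quotient.sound ⟨k, f, g, by rw [(germ_map_hom D f i _).2, (germ_map_hom D g i _).2, h]⟩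

theorem exists_composable {i : ℕ} {x y : GermCell D} (h : germTgt D i x = germSrc D i y) :
    ∃ (j : J) (a b : (D.obj j).obj.Cell), germ D j a = x ∧ germ D j b = y ∧
      (D.obj j).obj.tgt i a = (D.obj j).obj.src i b := by
  obtain ⟨j, a, b, rfl, rfl⟩ := exists_stage₂ D x y
  obtain ⟨k, f, hf⟩ := (germ_eq_iff D).1 h
  refine ⟨k, tr D f a, tr D f b, germ_tr D f a, germ_tr D f b, ?_⟩
  rw [← (germ_map_hom D f i _).2, ← (germ_map_hom D f i _).1]
  exact hf

open Classical in
/-- The composite of classes. -/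
def germComp (i : ℕ) (x y : GermCell D) : GermCell D :=
  if h : germTgt D i x = germSrc D i y then
    germ D (exists_composable D h).choose
      ((D.obj _).obj.comp i (exists_composable D h).choose_spec.choose
        (exists_composable D h).choose_spec.choose_spec.choose)
  else x

theorem germComp_mk {i : ℕ} {j : J} {a b : (D.obj j).obj.Cell}
    (h : (D.obj j).obj.tgt i a = (D.obj j).obj.src i b) :
    germComp D i (germ D j a) (germ D j b) = germ D j ((D.obj j).obj.comp i a b) := by
  have hq : germTgt D i (germ D j a) = germSrc D i (germ D j b) := congrArg (germ D j) h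
  rw [germComp, dif_pos hq]
  obtain ⟨ha, hb, hab⟩ := (exists_composable D hq).choose_spec.choose_spec.choose_spec
  generalize (exists_composable D hq).choose_spec.choose_spec.choose = b' at *
  generalize (exists_composable D hq).choose_spec.choose = a' at *
  generalize (exists_composable D hq).choose = j' at *
  obtain ⟨l, u, v, -⟩ := IsFilteredOrEmpty.cocone_objs j' j
  have ha' : germ D l (tr D u a') = germ D l (tr D v a) := by rw [germ_tr, germ_tr, ha]
  have hb' : germ D l (tr D u b') = germ D l (tr D v b) := by rw [germ_tr, germ_tr, hb]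
  obtain ⟨m, w, hw⟩ := exists_eq_stage D ![tr D u a', tr D u b'] ![tr D v a, tr D v b]
    fun t => by fin_cases t <;> assumption
  refine Quotient.sound ⟨m, u ≫ w, v ≫ w, ?_⟩
  refine ((D.map (u ≫ w)).hom.map_comp i a' b' hab).trans
    (Eq.trans ?_ ((D.map (v ≫ w)).hom.map_comp i a b h).symm)
  show (D.obj m).obj.comp i (tr D (u ≫ w) a') (tr D (u ≫ w) b') =
    (D.obj m).obj.comp i (tr D (v ≫ w) a) (tr D (v ≫ w) b)
  simp only [tr_comp]
  exact congrArg₂ _ (hw 0) (hw 1)

/-- Composable representatives of a composable pair of classes and one more class. -/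
theorem exists_stage_assoc {i : ℕ} {x y z : GermCell D} (hxy : germTgt D i x = germSrc D i y)
    (hyz : germTgt D i y = germSrc D i z) :
    ∃ (j : J) (a b c : (D.obj j).obj.Cell), germ D j a = x ∧ germ D j b = y ∧ germ D j c = z ∧
      (D.obj j).obj.tgt i a = (D.obj j).obj.src i b ∧
      (D.obj j).obj.tgt i b = (D.obj j).obj.src i c := by
  obtain ⟨j, r, hr⟩ := exists_stage D ![x, y, z]
  obtain ⟨k, f, hf⟩ := exists_eq_stage D
    ![(D.obj j).obj.tgt i (r 0), (D.obj j).obj.tgt i (r 1)]
    ![(D.obj j).obj.src i (r 1), (D.obj j).obj.src i (r 2)] fun t => by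
    have h0 := hr 0; have h1 := hr 1; have h2 := hr 2
    simp only [Matrix.cons_val] at h0 h1 h2
    subst h0 h1 h2
    fin_cases t
    · exact hxy
    · exact hyz
  refine ⟨k, tr D f (r 0), tr D f (r 1), tr D f (r 2), (germ_tr D f _).trans (hr 0),
    (germ_tr D f _).trans (hr 1), (germ_tr D f _).trans (hr 2), ?_, ?_⟩
  · rw [← (germ_map_hom D f i _).2, ← (germ_map_hom D f i _).1]; exact hf 0
  · rw [← (germ_map_hom D f i _).2, ← (germ_map_hom D f i _).1]; exact hf 1

/-- Representatives of an interchange square. -/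
theorem exists_stage_square {i j : ℕ} {x y z w : GermCell D}
    (hxy : germTgt D i x = germSrc D i y) (hxz : germTgt D j x = germSrc D j z)
    (hyw : germTgt D j y = germSrc D j w) :
    ∃ (l : J) (a b c d : (D.obj l).obj.Cell),
      germ D l a = x ∧ germ D l b = y ∧ germ D l c = z ∧ germ D l d = w ∧
      (D.obj l).obj.tgt i a = (D.obj l).obj.src i b ∧
      (D.obj l).obj.tgt j a = (D.obj l).obj.src j c ∧
      (D.obj l).obj.tgt j b = (D.obj l).obj.src j d := by
  obtain ⟨l, r, hr⟩ := exists_stage D ![x, y, z, w]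
  obtain ⟨k, f, hf⟩ := exists_eq_stage D
    ![(D.obj l).obj.tgt i (r 0), (D.obj l).obj.tgt j (r 0), (D.obj l).obj.tgt j (r 1)]
    ![(D.obj l).obj.src i (r 1), (D.obj l).obj.src j (r 2), (D.obj l).obj.src j (r 3)] fun t => by
    have h0 := hr 0; have h1 := hr 1; have h2 := hr 2; have h3 := hr 3
    simp only [Matrix.cons_val] at h0 h1 h2 h3
    subst h0 h1 h2 h3
    fin_cases t
    · exact hxy
    · exact hxz
    · exact hyw
  refine ⟨k, tr D f (r 0), tr D f (r 1), tr D f (r 2), tr D f (r 3), (germ_tr D f _).trans (hr 0),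
    (germ_tr D f _).trans (hr 1), (germ_tr D f _).trans (hr 2), (germ_tr D f _).trans (hr 3),
    ?_, ?_, ?_⟩
  · rw [← (germ_map_hom D f i _).2, ← (germ_map_hom D f i _).1]; exact hf 0
  · rw [← (germ_map_hom D f j _).2, ← (germ_map_hom D f j _).1]; exact hf 1
  · rw [← (germ_map_hom D f j _).2, ← (germ_map_hom D f j _).1]; exact hf 2

/-- The filtered colimit, computed on cells. -/
def germObj : OmegaCat where
  Cell := GermCell D
  src := germSrc D
  tgt := germTgt D
  comp := germComp D
  src_src i := Quotient.ind fun a => congrArg (germ D a.1) ((D.obj a.1).obj.src_src i a.2)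
  tgt_src i := Quotient.ind fun a => congrArg (germ D a.1) ((D.obj a.1).obj.tgt_src i a.2)
  src_tgt i := Quotient.ind fun a => congrArg (germ D a.1) ((D.obj a.1).obj.src_tgt i a.2)
  tgt_tgt i := Quotient.ind fun a => congrArg (germ D a.1) ((D.obj a.1).obj.tgt_tgt i a.2)
  src_src_lo h := Quotient.ind fun a => congrArg (germ D a.1) ((D.obj a.1).obj.src_src_lo h a.2)
  src_tgt_lo h := Quotient.ind fun a => congrArg (germ D a.1) ((D.obj a.1).obj.src_tgt_lo h a.2)
  tgt_src_lo h := Quotient.ind fun a => congrArg (germ D a.1) ((D.obj a.1).obj.tgt_src_lo h a.2)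
  tgt_tgt_lo h := Quotient.ind fun a => congrArg (germ D a.1) ((D.obj a.1).obj.tgt_tgt_lo h a.2)
  src_src_hi h := Quotient.ind fun a => congrArg (germ D a.1) ((D.obj a.1).obj.src_src_hi h a.2)
  src_tgt_hi h := Quotient.ind fun a => congrArg (germ D a.1) ((D.obj a.1).obj.src_tgt_hi h a.2)
  tgt_src_hi h := Quotient.ind fun a => congrArg (germ D a.1) ((D.obj a.1).obj.tgt_src_hi h a.2)
  tgt_tgt_hi h := Quotient.ind fun a => congrArg (germ D a.1) ((D.obj a.1).obj.tgt_tgt_hi h a.2)
  finite_dim := Quotient.ind fun a => by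
    obtain ⟨N, hN⟩ := (D.obj a.1).obj.finite_dim a.2
    exact ⟨N, congrArg (germ D a.1) hN⟩
  src_comp i x y h := by
    obtain ⟨j, a, b, rfl, rfl, hab⟩ := exists_composable D h
    rw [germComp_mk D hab]
    exact congrArg (germ D j) ((D.obj j).obj.src_comp i a b hab)
  tgt_comp i x y h := by
    obtain ⟨j, a, b, rfl, rfl, hab⟩ := exists_composable D h
    rw [germComp_mk D hab]
    exact congrArg (germ D j) ((D.obj j).obj.tgt_comp i a b hab)
  src_comp_hi {i j} hij x y h := by
    obtain ⟨l, a, b, rfl, rfl, hab⟩ := exists_composable D h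
    rw [germComp_mk D hab]
    refine Eq.trans (congrArg (germ D l) ((D.obj l).obj.src_comp_hi hij a b hab))
      (germComp_mk D ?_).symm
    rw [(D.obj l).obj.tgt_src_lo hij, (D.obj l).obj.src_src_lo hij]
    exact hab
  tgt_comp_hi {i j} hij x y h := by
    obtain ⟨l, a, b, rfl, rfl, hab⟩ := exists_composable D h
    rw [germComp_mk D hab]
    refine Eq.trans (congrArg (germ D l) ((D.obj l).obj.tgt_comp_hi hij a b hab))
      (germComp_mk D ?_).symm
    rw [(D.obj l).obj.tgt_tgt_lo hij, (D.obj l).obj.src_tgt_lo hij]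
    exact hab
  unit_left i := Quotient.ind fun a =>
    (germComp_mk D ((D.obj a.1).obj.tgt_src i a.2)).trans
      (congrArg (germ D a.1) ((D.obj a.1).obj.unit_left i a.2))
  unit_right i := Quotient.ind fun a =>
    (germComp_mk D ((D.obj a.1).obj.src_tgt i a.2).symm).trans
      (congrArg (germ D a.1) ((D.obj a.1).obj.unit_right i a.2))
  assoc i x y z h1 h2 := by
    obtain ⟨j, a, b, c, rfl, rfl, rfl, hab, hbc⟩ := exists_stage_assoc D h1 h2
    rw [germComp_mk D hab, germComp_mk D hbc,
      germComp_mk D (((D.obj j).obj.tgt_comp i a b hab).trans hbc),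
      germComp_mk D (hab.trans ((D.obj j).obj.src_comp i b c hbc).symm),
      (D.obj j).obj.assoc i a b c hab hbc]
  interchange {i j} hij x y z w hxy hxz hyw := by
    obtain ⟨l, a, b, c, d, rfl, rfl, rfl, rfl, hab, hac, hbd⟩ :=
      exists_stage_square D hxy hxz hyw
    have hcd : (D.obj l).obj.tgt i c = (D.obj l).obj.src i d := by
      have e1 := congrArg ((D.obj l).obj.tgt i) hac
      have e2 := congrArg ((D.obj l).obj.src i) hbd
      rw [(D.obj l).obj.tgt_tgt_lo hij, (D.obj l).obj.tgt_src_lo hij] at e1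
      rw [(D.obj l).obj.src_tgt_lo hij, (D.obj l).obj.src_src_lo hij] at e2
      rw [← e1, ← e2]; exact hab
    rw [germComp_mk D hab, germComp_mk D hac, germComp_mk D hbd, germComp_mk D hcd,
      germComp_mk D (a := (D.obj l).obj.comp i a b) (b := (D.obj l).obj.comp i c d),
      germComp_mk D (a := (D.obj l).obj.comp j a c) (b := (D.obj l).obj.comp j b d),
      (D.obj l).obj.interchange hij a b c d hab hac hbd]
    · rw [← (D.obj l).obj.tgt_src_lo hij ((D.obj l).obj.comp j a c),
        (D.obj l).obj.src_comp j a c hac, (D.obj l).obj.tgt_src_lo hij,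
        ← (D.obj l).obj.src_src_lo hij ((D.obj l).obj.comp j b d),
        (D.obj l).obj.src_comp j b d hbd, (D.obj l).obj.src_src_lo hij]
      exact hab
    · rw [(D.obj l).obj.tgt_comp_hi hij _ _ hab, (D.obj l).obj.src_comp_hi hij _ _ hcd, hac, hbd]

theorem germObj_dimLE : dimLE n (germObj D) := fun m hm =>
  Quotient.ind fun a => congrArg (germ D a.1) ((D.obj a.1).property m hm a.2)

/-- The functor from a stage. -/
def germι (j : J) : (D.obj j).obj ⟶ germObj D where
  toFun := germ D j
  map_src _ _ := rfl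
  map_tgt _ _ := rfl
  map_comp _ _ _ h := (germComp_mk D h).symm

/-- The colimit cocone on cells. -/
def germCocone : Limits.Cocone D where
  pt := ⟨germObj D, germObj_dimLE D⟩
  ι :=
    { app := fun j => ObjectProperty.homMk (germι D j)
      naturality := fun j k f => by
        ext1
        exact hom_ext_cell fun x => germ_tr D f x }

/-- The functor out of the germs. -/
def germDesc (s : Limits.Cocone D) : germObj D ⟶ s.pt.obj where
  toFun := Quotient.lift (fun a => (s.ι.app a.1).hom.toFun a.2) fun a b ⟨k, f, g, h⟩ => by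
    have ef := hom_congr (congrArg (fun F => F.hom) (s.w f)) a.2
    have eg := hom_congr (congrArg (fun F => F.hom) (s.w g)) b.2
    exact ef.symm.trans ((congrArg (s.ι.app k).hom.toFun h).trans eg)
  map_src i := Quotient.ind fun a => (s.ι.app a.1).hom.map_src i a.2
  map_tgt i := Quotient.ind fun a => (s.ι.app a.1).hom.map_tgt i a.2
  map_comp i x y h := by
    obtain ⟨j, a, b, rfl, rfl, hab⟩ := exists_composable D h
    show Quotient.lift _ _ (germComp D i _ _) = _
    rw [germComp_mk D hab]
    exact (s.ι.app j).hom.map_comp i a b hab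

/-- Germs form a colimit. -/
def germIsColimit : IsColimit (germCocone D) where
  desc s := ObjectProperty.homMk (germDesc D s)
  fac _ _ := rfl
  uniq s m hm := by
    ext1
    exact hom_ext_cell (Quotient.ind fun a =>
      hom_congr (congrArg (fun F => F.hom) (hm a.1)) a.2)

end OmegaCat

end Vale.Agent.P213
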